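import Mathlib

namespace Vale.Agent.P052.R3.H506

/-- two complementary rectangles -/
theorem rect {A B κ ω : ℝ} (hκ : 0 ≤ κ) (hω : 0 ≤ ω) (hκA : κ < A) (hωB : ω < B) :
    0 ≤ 4 * (A * B) - 4 * (κ * ω) - 4 * ((A - κ) * (B - ω)) ∧
      4 * (4 * (κ * ω) * (4 * ((A - κ) * (B - ω)))) ≤
        (4 * (A * B) - 4 * (κ * ω) - 4 * ((A - κ) * (B - ω))) ^ 2 := by
  have h1 : 0 ≤ κ * (B - ω) := mul_nonneg hκ (by linarith)
  have h2 : 0 ≤ ω * (A - κ) := mul_nonneg hω (by linarith)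
  have h3 : 4 * (A * B) - 4 * (κ * ω) - 4 * ((A - κ) * (B - ω)) =
      4 * (κ * (B - ω) + ω * (A - κ)) := by ring
  constructor
  · rw [h3]
    positivity
  · rw [h3]
    have h4 : (4 * (κ * (B - ω) + ω * (A - κ))) ^ 2 -
        4 * (4 * (κ * ω) * (4 * ((A - κ) * (B - ω)))) =
        16 * (κ * (B - ω) - ω * (A - κ)) ^ 2 := by ring
    have h5 : 0 ≤ 16 * (κ * (B - ω) - ω * (A - κ)) ^ 2 := by positivity
    linarith

/-- the heights have mixed signs -/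
theorem mixed {z z' : ℝ} (hz1 : -(1 / 2) ≤ z) (hz2 : z ≤ 1 / 5) (hz'1 : -(1 / 2) ≤ z')
    (hz'2 : z' ≤ 1 / 5) (h : z * z' < 0) :
    -(1 / 10) ≤ z * z' ∧ ((1 / 2 ≤ 1 - 2 * z ^ 2 ∧ 23 / 25 ≤ 1 - 2 * z' ^ 2) ∨
      (23 / 25 ≤ 1 - 2 * z ^ 2 ∧ 1 / 2 ≤ 1 - 2 * z' ^ 2)) := by
  rcases lt_or_ge z 0 with hz | hz
  · have hz' : 0 ≤ z' := by
      by_contra hc
      push Not at hc
      exact absurd (mul_pos_of_neg_of_neg hz hc) (not_lt.2 h.le)
    refine ⟨?_, Or.inl ⟨?_, ?_⟩⟩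
    · nlinarith
    · nlinarith
    · nlinarith
  · have hz' : z' < 0 := by
      by_contra hc
      push Not at hc
      exact absurd (mul_nonneg hz hc) (not_le.2 h)
    refine ⟨?_, Or.inr ⟨?_, ?_⟩⟩
    · nlinarith
    · nlinarith
    · nlinarith

theorem half_le {z : ℝ} (hz1 : -(1 / 2) ≤ z) (hz2 : z ≤ 1 / 5) : 1 / 2 ≤ 1 - 2 * z ^ 2 := by
  nlinarith

theorem root_half {A : ℝ} (hA : 0 < A) (h : 1 / 2 ≤ A ^ 2 + A) : 0.366 ≤ A := by
  by_contra hc
  push Not at hc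
  nlinarith

theorem root_big {A : ℝ} (hA : 0 < A) (h : 23 / 25 ≤ A ^ 2 + A) : 0.5816 ≤ A := by
  by_contra hc
  push Not at hc
  nlinarith

/-- the polynomial inequality of the mixed case -/
theorem poly_mixed {P u v : ℝ} (hP0 : 0 ≤ P) (hP1 : P ≤ 1) (hP : 0.2128 ≤ P ^ 2)
    (hu : P ^ 2 - 1 / 5 ≤ u) (hv : 2 * P - 1 / 5 ≤ v) (h0 : 0 ≤ 4 * P ^ 2 - u - v)
    (h : 4 * (u * v) ≤ (4 * P ^ 2 - u - v) ^ 2) : False := by
  have hP2 : 0.46 ≤ P := by
    by_contra hc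
    push Not at hc
    nlinarith
  have e1 : 4 * P ^ 2 - u - v ≤ 3 * P ^ 2 - 2 * P + 2 / 5 := by linarith
  have e2 : (4 * P ^ 2 - u - v) ^ 2 ≤ (3 * P ^ 2 - 2 * P + 2 / 5) ^ 2 := pow_le_pow_left₀ h0 e1 2
  have e3 : (P ^ 2 - 1 / 5) * (2 * P - 1 / 5) ≤ u * v :=
    mul_le_mul hu hv (by linarith) (by linarith)
  have e4 : 4 * ((P ^ 2 - 1 / 5) * (2 * P - 1 / 5)) - (3 * P ^ 2 - 2 * P + 2 / 5) ^ 2 =
      P ^ 2 * (-9 * P ^ 2 + 20 * P - 36 / 5) := by ring
  have e5 : 0 < -9 * P ^ 2 + 20 * P - 36 / 5 := by nlinarith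
  have e6 : 0 < P ^ 2 * (-9 * P ^ 2 + 20 * P - 36 / 5) := mul_pos (by positivity) e5
  linarith

theorem sqrt_facts {A B : ℝ} (a0 : 0 ≤ A) (b0 : 0 ≤ B) (hA1 : A ≤ 1) (hB1 : B ≤ 1) :
    Real.sqrt (A * B) ≤ 1 ∧ 2 * Real.sqrt (A * B) ≤ A + B := by
  constructor
  · rw [Real.sqrt_le_one]
    exact mul_le_one₀ hA1 b0 hB1
  · have e1 : (2 * Real.sqrt (A * B)) ^ 2 ≤ (A + B) ^ 2 := by
      rw [mul_pow, Real.sq_sqrt (mul_nonneg a0 b0)]
      nlinarith [sq_nonneg (A - B)]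
    exact (pow_le_pow_iff_left₀ (by positivity) (by linarith) two_ne_zero).1 e1

theorem real_cell {A B κ ω z z' E : ℝ} (hA1 : A ≤ 1) (hB1 : B ≤ 1) (hκA : κ < A) (hωB : ω < B)
    (hκ : -(1/4) < κ) (hω : -(1/4) < ω) (hz1 : -(1/2) ≤ z) (hz2 : z ≤ 1/5) (hz'1 : -(1/2) ≤ z')
    (hz'2 : z' ≤ 1/5) (hCA : 1 - 2 * z ^ 2 + 4 * κ ^ 2 ≤ A * (1 + 4 * κ))
    (hCB : 1 - 2 * z' ^ 2 + 4 * ω ^ 2 ≤ B * (1 + 4 * ω)) (h1 : A * B ≤ E)
    (h2 : A * (1 + 4 * ω) + B * (1 + 4 * κ) - 4 * (A * B) ≤ E) :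
    4 * (κ * ω) < E + 2 * (z * z') := by
  by_contra hcon
  push Not at hcon
  have za := half_le hz1 hz2
  have zb := half_le hz'1 hz'2
  have a0 : 0 < A := by
    have h3 : 0 < A * (1 + 4 * κ) := by
      have := sq_nonneg κ
      linarith
    exact (pos_iff_pos_of_mul_pos h3).2 (by linarith)
  have b0 : 0 < B := by
    have h3 : 0 < B * (1 + 4 * ω) := by
      have := sq_nonneg ω
      linarith
    exact (pos_iff_pos_of_mul_pos h3).2 (by linarith)
  have AB0 : 0 < A * B := mul_pos a0 b0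
  have qa : 1 - 2 * z ^ 2 ≤ A ^ 2 + A := by nlinarith [sq_nonneg (A - 2 * κ)]
  have qb : 1 - 2 * z' ^ 2 ≤ B ^ 2 + B := by nlinarith [sq_nonneg (B - 2 * ω)]
  -- bounds when both parameters are negative
  have neg : κ < 0 → ω < 0 → (1 - 2 * z ^ 2) * (1 - 2 * z' ^ 2) < A * B ∧ κ * ω < 1 / 16 := by
    intro hk ho
    have e1 : 1 - 2 * z ^ 2 < A := by
      have h3 : A * κ < 0 := mul_neg_of_pos_of_neg a0 hk
      have := sq_nonneg κ
      linarith
    have e2 : 1 - 2 * z' ^ 2 < B := by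
      have h3 : B * ω < 0 := mul_neg_of_pos_of_neg b0 ho
      have := sq_nonneg ω
      linarith
    refine ⟨mul_lt_mul'' e1 e2 (by linarith) (by linarith), ?_⟩
    have e3 : -κ * -ω < 1 / 4 * (1 / 4) :=
      mul_lt_mul'' (by linarith) (by linarith) (by linarith) (by linarith)
    linarith
  -- the third bound
  have hv : A + B + 2 * (z * z') ≤ 4 * ((A - κ) * (B - ω)) := by
    have e1 : 4 * ((A - κ) * (B - ω)) = 4 * (A * B) - 4 * (A * ω) - 4 * (B * κ) + 4 * (κ * ω) := by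
      ring
    rw [e1]
    linarith
  have hu : A * B + 2 * (z * z') ≤ 4 * (κ * ω) := by linarith
  by_cases hτ : 0 ≤ z * z'
  · have hpos : 0 < κ * ω := by linarith
    rcases lt_or_ge κ 0 with hk | hk
    · have ho : ω < 0 := by
        by_contra hc
        push Not at hc
        exact absurd (mul_nonpos_of_nonpos_of_nonneg hk.le hc) (not_le.2 hpos)
      obtain ⟨e1, e2⟩ := neg hk ho
      have e3 : (1 : ℝ) / 2 * (1 / 2) ≤ (1 - 2 * z ^ 2) * (1 - 2 * z' ^ 2) :=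
        mul_le_mul za zb (by norm_num) (by linarith)
      linarith
    · have hk0 : 0 ≤ κ := hk
      have ho : 0 ≤ ω := by
        by_contra hc
        push Not at hc
        exact absurd (mul_nonpos_of_nonneg_of_nonpos hk0 hc.le) (not_le.2 hpos)
      obtain ⟨r1, r2⟩ := rect hk0 ho hκA hωB
      have e1 : A * B ≤ A := by nlinarith
      have e2 : A * B ≤ B := by nlinarith
      set u := 4 * (κ * ω) with hudef
      set v := 4 * ((A - κ) * (B - ω)) with hvdef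
      have e3 : A * B ≤ u := by linarith
      have e4 : 2 * (A * B) ≤ v := by linarith
      have e5 : (4 * (A * B) - u - v) ^ 2 ≤ (A * B) ^ 2 := pow_le_pow_left₀ r1 (by linarith) 2
      have e6 : A * B * (2 * (A * B)) ≤ u * v := mul_le_mul e3 e4 (by positivity) (by linarith)
      have e7 : 0 < (A * B) ^ 2 := by positivity
      linarith
  · push Not at hτ
    obtain ⟨t1, t2⟩ := mixed hz1 hz2 hz'1 hz'2 hτ
    have hAB : 0.2128 ≤ A * B := by
      rcases t2 with ⟨t3, t4⟩ | ⟨t3, t4⟩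
      · have e1 := root_half a0 (t3.trans qa)
        have e2 := root_big b0 (t4.trans qb)
        have e3 : (0.366 : ℝ) * 0.5816 ≤ A * B := mul_le_mul e1 e2 (by norm_num) a0.le
        norm_num at e3 ⊢
        linarith
      · have e1 := root_big a0 (t3.trans qa)
        have e2 := root_half b0 (t4.trans qb)
        have e3 : (0.5816 : ℝ) * 0.366 ≤ A * B := mul_le_mul e1 e2 (by norm_num) a0.le
        norm_num at e3 ⊢
        linarith
    have hpos : 0 < κ * ω := by linarith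
    rcases lt_or_ge κ 0 with hk | hk
    · have ho : ω < 0 := by
        by_contra hc
        push Not at hc
        exact absurd (mul_nonpos_of_nonpos_of_nonneg hk.le hc) (not_le.2 hpos)
      obtain ⟨e1, e2⟩ := neg hk ho
      have e3 : (0.46 : ℝ) ≤ (1 - 2 * z ^ 2) * (1 - 2 * z' ^ 2) := by
        rcases t2 with ⟨t3, t4⟩ | ⟨t3, t4⟩
        · have e5 : (1 : ℝ) / 2 * (23 / 25) ≤ (1 - 2 * z ^ 2) * (1 - 2 * z' ^ 2) :=
            mul_le_mul t3 t4 (by norm_num) (by linarith)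
          norm_num at e5 ⊢
          linarith
        · have e5 : (23 : ℝ) / 25 * (1 / 2) ≤ (1 - 2 * z ^ 2) * (1 - 2 * z' ^ 2) :=
            mul_le_mul t3 t4 (by norm_num) (by linarith)
          norm_num at e5 ⊢
          linarith
      linarith
    · have hk0 : 0 ≤ κ := hk
      have ho : 0 ≤ ω := by
        by_contra hc
        push Not at hc
        exact absurd (mul_nonpos_of_nonneg_of_nonpos hk0 hc.le) (not_le.2 hpos)
      obtain ⟨r1, r2⟩ := rect hk0 ho hκA hωB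
      set P := Real.sqrt (A * B) with hPdef
      have hP2 : P ^ 2 = A * B := Real.sq_sqrt AB0.le
      have hP0 : 0 ≤ P := Real.sqrt_nonneg _
      obtain ⟨hP1, hPs⟩ := sqrt_facts a0.le b0.le hA1 hB1
      refine poly_mixed (P := P) (u := 4 * (κ * ω)) (v := 4 * ((A - κ) * (B - ω))) hP0 hP1
        (by rw [hP2]; exact hAB) (by rw [hP2]; linarith) (by linarith) (by rw [hP2]; exact r1) ?_
      rw [hP2]
      exact r2

end Vale.Agent.P052.R3.H506
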