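import Mathlib

namespace Vale.Agent.P052.R3.H506.V5

/-- two complementary rectangles -/
theorem rect {A B κ ω : ℝ} (hκ : 0 ≤ κ) (hω : 0 ≤ ω) (hκA : κ < A) (hωB : ω < B) :
    0 ≤ 5 * (A * B) - 5 * (κ * ω) - 5 * ((A - κ) * (B - ω)) ∧
      4 * (5 * (κ * ω) * (5 * ((A - κ) * (B - ω)))) ≤
        (5 * (A * B) - 5 * (κ * ω) - 5 * ((A - κ) * (B - ω))) ^ 2 := by
  have h1 : 0 ≤ κ * (B - ω) := mul_nonneg hκ (by linarith)
  have h2 : 0 ≤ ω * (A - κ) := mul_nonneg hω (by linarith)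
  have h3 : 5 * (A * B) - 5 * (κ * ω) - 5 * ((A - κ) * (B - ω)) =
      5 * (κ * (B - ω) + ω * (A - κ)) := by ring
  constructor
  · rw [h3]
    positivity
  · rw [h3]
    have h4 : (5 * (κ * (B - ω) + ω * (A - κ))) ^ 2 -
        4 * (5 * (κ * ω) * (5 * ((A - κ) * (B - ω)))) =
        25 * (κ * (B - ω) - ω * (A - κ)) ^ 2 := by ring
    have h5 : 0 ≤ 25 * (κ * (B - ω) - ω * (A - κ)) ^ 2 := by positivity
    linarith

/-- the heights have mixed signs -/
theorem mixed {z z' : ℝ} (hz1 : -(1 / 2) ≤ z) (hz2 : z ≤ 3 / 16) (hz'1 : -(1 / 2) ≤ z')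
    (hz'2 : z' ≤ 3 / 16) (h : z * z' < 0) :
    -(3 / 32) ≤ z * z' ∧ ((1 / 2 ≤ 1 - 2 * z ^ 2 ∧ 119 / 128 ≤ 1 - 2 * z' ^ 2) ∨
      (119 / 128 ≤ 1 - 2 * z ^ 2 ∧ 1 / 2 ≤ 1 - 2 * z' ^ 2)) := by
  rcases lt_or_ge z 0 with hz | hz
  · have hz' : 0 ≤ z' := by
      by_contra hc
      push Not at hc
      exact absurd (mul_pos_of_neg_of_neg hz hc) (not_lt.2 h.le)
    refine ⟨?_, Or.inl ⟨?_, ?_⟩⟩
    · nlinarith
    · nlinarith
    · nlinarith
  · have hz' : z' < 0 := by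
      by_contra hc
      push Not at hc
      exact absurd (mul_nonneg hz hc) (not_le.2 h)
    refine ⟨?_, Or.inr ⟨?_, ?_⟩⟩
    · nlinarith
    · nlinarith
    · nlinarith

theorem half_le {z : ℝ} (hz1 : -(1 / 2) ≤ z) (hz2 : z ≤ 3 / 16) : 1 / 2 ≤ 1 - 2 * z ^ 2 := by
  nlinarith

theorem sqrt_facts {A B : ℝ} (a0 : 0 ≤ A) (b0 : 0 ≤ B) (hA1 : A ≤ 1) (hB1 : B ≤ 1) :
    Real.sqrt (A * B) ≤ 1 ∧ 2 * Real.sqrt (A * B) ≤ A + B := by
  constructor
  · rw [Real.sqrt_le_one]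
    exact mul_le_one₀ hA1 b0 hB1
  · have e1 : (2 * Real.sqrt (A * B)) ^ 2 ≤ (A + B) ^ 2 := by
      rw [mul_pow, Real.sq_sqrt (mul_nonneg a0 b0)]
      nlinarith [sq_nonneg (A - B)]
    exact (pow_le_pow_iff_left₀ (by positivity) (by linarith) two_ne_zero).1 e1

/-- the polynomial inequality of the mixed case -/
theorem poly_mixed {P u v : ℝ} (hP0 : 0 ≤ P) (hP1 : P ≤ 1) (hP : 0.2214 ≤ P ^ 2)
    (hu : P ^ 2 - 3 / 16 ≤ u) (hv : 2 * P - 3 / 16 ≤ v) (h0 : 0 ≤ 5 * P ^ 2 - u - v)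
    (h : 4 * (u * v) ≤ (5 * P ^ 2 - u - v) ^ 2) : False := by
  have hP2 : 0.4705 ≤ P := by
    by_contra hc
    push Not at hc
    nlinarith
  have e1 : 5 * P ^ 2 - u - v ≤ 4 * P ^ 2 - 2 * P + 3 / 8 := by linarith
  have e2 : (5 * P ^ 2 - u - v) ^ 2 ≤ (4 * P ^ 2 - 2 * P + 3 / 8) ^ 2 := pow_le_pow_left₀ h0 e1 2
  have e3 : (P ^ 2 - 3 / 16) * (2 * P - 3 / 16) ≤ u * v :=
    mul_le_mul hu hv (by linarith) (by linarith)
  have e4 : 4 * ((P ^ 2 - 3 / 16) * (2 * P - 3 / 16)) - (4 * P ^ 2 - 2 * P + 3 / 8) ^ 2 =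
      4 * (P ^ 2 * (-4 * P ^ 2 + 6 * P - 31 / 16)) := by ring
  have e5 : 0 < -4 * P ^ 2 + 6 * P - 31 / 16 := by
    nlinarith [mul_nonneg (sub_nonneg.2 hP2) (by linarith : (0 : ℝ) ≤ 1.0295 - P)]
  have e6 : 0 < P ^ 2 * (-4 * P ^ 2 + 6 * P - 31 / 16) := mul_pos (by positivity) e5
  linarith

theorem root0 {A : ℝ} (hA : 0 < A) (h : 1 / 2 ≤ A + 1.25 * A ^ 2) : 0.34 ≤ A := by
  by_contra hc
  push Not at hc
  nlinarith

theorem root1 {A : ℝ} (hA : 0 < A) (h : 1 / 2 ≤ A + 0.721875 * A ^ 2) : 0.39 ≤ A := by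
  by_contra hc
  push Not at hc
  nlinarith

theorem root2 {A : ℝ} (hA : 0 < A) (h : 119 / 128 ≤ A + 1.088 * A ^ 2) : 0.5727 ≤ A := by
  by_contra hc
  push Not at hc
  nlinarith

theorem root3 {A : ℝ} (hA : 0 < A) (h : 119 / 128 ≤ A + 0.721875 * A ^ 2) : 0.636 ≤ A := by
  by_contra hc
  push Not at hc
  nlinarith

theorem root4 {A : ℝ} (hA : 0 < A) (h : 1 / 2 ≤ A + 1.088 * A ^ 2) : 0.3594 ≤ A := by
  by_contra hc
  push Not at hc
  nlinarith

/-- `a (A - a)` from a lower bound of `a / A` -/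
theorem quad_le {A κ r : ℝ} (hκ : 0 ≤ κ) (hA : 0 < A) (hr : 1 / 2 ≤ r)
    (h : r * A ≤ A - κ) : κ * (A - κ) ≤ r * (1 - r) * A ^ 2 := by
  have h1 : 0 ≤ (A - κ - r * A) * (A - κ - (1 - r) * A) := by
    apply mul_nonneg (by linarith)
    nlinarith
  nlinarith

/-- a quadratic inequality for `A` -/
theorem lower {A κ α r : ℝ} (hκ : 0 ≤ κ) (hA : 0 < A) (hr : 1 / 2 ≤ r)
    (h : r * A ≤ A - κ) (hα : α + 5 * κ ^ 2 ≤ A * (1 + 5 * κ)) :
    α ≤ A + 5 * (r * (1 - r)) * A ^ 2 := by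
  have h1 := quad_le hκ hA hr h
  nlinarith

/-- the case of a small product -/
theorem small {A B κ ω α β : ℝ} (a0 : 0 < A) (b0 : 0 < B) (hA1 : A ≤ 1) (hB1 : B ≤ 1)
    (hκ0 : 0 ≤ κ) (hω0 : 0 ≤ ω) (hκA : κ < A) (hωB : ω < B)
    (hα : α + 5 * κ ^ 2 ≤ A * (1 + 5 * κ)) (hβ : β + 5 * ω ^ 2 ≤ B * (1 + 5 * ω))
    (hv : A + B - 3 / 16 ≤ 5 * ((A - κ) * (B - ω))) (hAB : A * B ≤ 0.2214)
    (h1 : 1 / 2 ≤ α) (h2 : 119 / 128 ≤ β) : False := by
  have qA : 1 / 2 ≤ A + 1.25 * A ^ 2 := by nlinarith [sq_nonneg (A - 2 * κ)]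
  have qB : 1 / 2 ≤ B + 1.25 * B ^ 2 := by nlinarith [sq_nonneg (B - 2 * ω)]
  have rA := root0 a0 qA
  have rB := root0 b0 qB
  have AB0 : 0 < A * B := mul_pos a0 b0
  obtain ⟨hP1, hPs⟩ := sqrt_facts a0.le b0.le hA1 hB1
  set P := Real.sqrt (A * B) with hPdef
  have hP2 : P ^ 2 = A * B := Real.sq_sqrt AB0.le
  have hP0 : 0 ≤ P := Real.sqrt_nonneg _
  have hPup : P ≤ 0.4706 := by
    by_contra hc
    push Not at hc
    have e1 : (0.4706 : ℝ) ^ 2 < P ^ 2 := pow_lt_pow_left₀ hc (by norm_num) two_ne_zero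
    rw [hP2] at e1
    norm_num at e1 hAB
    linarith
  have hPlo : 0.2 ≤ P := by
    by_contra hc
    push Not at hc
    have e1 : P ^ 2 < (0.2 : ℝ) ^ 2 := pow_lt_pow_left₀ hc hP0 two_ne_zero
    rw [hP2] at e1
    have e2 : (0.34 : ℝ) * 0.34 ≤ A * B := mul_le_mul rA rB (by norm_num) a0.le
    norm_num at e1 e2
    linarith
  have hf : 3.403125 * P ^ 2 ≤ 2 * P - 3 / 16 := by
    nlinarith [mul_nonneg (sub_nonneg.2 hPlo) (sub_nonneg.2 hPup)]
  have hprod : 0.680625 * (A * B) ≤ (A - κ) * (B - ω) := by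
    rw [hP2] at hf
    linarith
  have ha0 : 0 < A - κ := by linarith
  have hb0 : 0 < B - ω := by linarith
  have tA : 0.68 * A ≤ A - κ := by
    have e1 : (A - κ) * (B - ω) ≤ (A - κ) * B := mul_le_mul_of_nonneg_left (by linarith) ha0.le
    have e2 : 0.680625 * A * B ≤ (A - κ) * B := by linarith
    have e3 := le_of_mul_le_mul_right e2 b0
    linarith
  have tB : 0.68 * B ≤ B - ω := by
    have e1 : (A - κ) * (B - ω) ≤ A * (B - ω) := mul_le_mul_of_nonneg_right (by linarith) hb0.le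
    have e2 : 0.680625 * B * A ≤ (B - ω) * A := by linarith
    have e3 := le_of_mul_le_mul_right e2 a0
    linarith
  have hor : 0.825 * A ≤ A - κ ∨ 0.825 * B ≤ B - ω := by
    by_contra hc
    push Not at hc
    obtain ⟨c1, c2⟩ := hc
    have e1 : (A - κ) * (B - ω) < 0.825 * A * (0.825 * B) := mul_lt_mul'' c1 c2 ha0.le hb0.le
    have e2 : 0.825 * A * (0.825 * B) = 0.680625 * (A * B) := by ring
    linarith
  rcases hor with h | h
  · have e1 := lower hκ0 a0 (by norm_num) h hα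
    have e2 := lower hω0 b0 (by norm_num) tB hβ
    norm_num at e1 e2
    have e3 := root1 a0 (by norm_num; linarith)
    have e4 := root2 b0 (by norm_num; linarith)
    have e5 : (0.39 : ℝ) * 0.5727 ≤ A * B := mul_le_mul e3 e4 (by norm_num) a0.le
    norm_num at e5 hAB
    linarith
  · have e1 := lower hκ0 a0 (by norm_num) tA hα
    have e2 := lower hω0 b0 (by norm_num) h hβ
    norm_num at e1 e2
    have e3 := root4 a0 (by norm_num; linarith)
    have e4 := root3 b0 (by norm_num; linarith)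
    have e5 : (0.3594 : ℝ) * 0.636 ≤ A * B := mul_le_mul e3 e4 (by norm_num) a0.le
    norm_num at e5 hAB
    linarith

theorem real_cell5 {A B κ ω z z' E : ℝ} (hA1 : A ≤ 1) (hB1 : B ≤ 1) (hκA : κ < A) (hωB : ω < B)
    (hκ : -(1/5) < κ) (hω : -(1/5) < ω) (hz1 : -(1/2) ≤ z) (hz2 : z ≤ 3/16)
    (hz'1 : -(1/2) ≤ z') (hz'2 : z' ≤ 3/16) (hCA : 1 - 2 * z ^ 2 + 5 * κ ^ 2 ≤ A * (1 + 5 * κ))
    (hCB : 1 - 2 * z' ^ 2 + 5 * ω ^ 2 ≤ B * (1 + 5 * ω)) (h1 : A * B ≤ E)
    (h2 : A * (1 + 5 * ω) + B * (1 + 5 * κ) - 5 * (A * B) ≤ E) :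
    5 * (κ * ω) < E + 2 * (z * z') := by
  by_contra hcon
  push Not at hcon
  have za := half_le hz1 hz2
  have zb := half_le hz'1 hz'2
  have a0 : 0 < A := by
    have h3 : 0 < A * (1 + 5 * κ) := by
      have := sq_nonneg κ
      linarith
    exact (pos_iff_pos_of_mul_pos h3).2 (by linarith)
  have b0 : 0 < B := by
    have h3 : 0 < B * (1 + 5 * ω) := by
      have := sq_nonneg ω
      linarith
    exact (pos_iff_pos_of_mul_pos h3).2 (by linarith)
  have AB0 : 0 < A * B := mul_pos a0 b0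
  -- bounds when both parameters are negative
  have neg : κ < 0 → ω < 0 → (1 - 2 * z ^ 2) * (1 - 2 * z' ^ 2) < A * B ∧ κ * ω < 1 / 25 := by
    intro hk ho
    have e1 : 1 - 2 * z ^ 2 < A := by
      have h3 : A * κ < 0 := mul_neg_of_pos_of_neg a0 hk
      have := sq_nonneg κ
      linarith
    have e2 : 1 - 2 * z' ^ 2 < B := by
      have h3 : B * ω < 0 := mul_neg_of_pos_of_neg b0 ho
      have := sq_nonneg ω
      linarith
    refine ⟨mul_lt_mul'' e1 e2 (by linarith) (by linarith), ?_⟩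
    have e3 : -κ * -ω < 1 / 5 * (1 / 5) :=
      mul_lt_mul'' (by linarith) (by linarith) (by linarith) (by linarith)
    linarith
  -- the third bound
  have hv : A + B + 2 * (z * z') ≤ 5 * ((A - κ) * (B - ω)) := by
    have e1 : 5 * ((A - κ) * (B - ω)) = 5 * (A * B) - 5 * (A * ω) - 5 * (B * κ) + 5 * (κ * ω) := by
      ring
    rw [e1]
    linarith
  have hu : A * B + 2 * (z * z') ≤ 5 * (κ * ω) := by linarith
  by_cases hτ : 0 ≤ z * z'
  · have hpos : 0 < κ * ω := by linarith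
    rcases lt_or_ge κ 0 with hk | hk
    · have ho : ω < 0 := by
        by_contra hc
        push Not at hc
        exact absurd (mul_nonpos_of_nonpos_of_nonneg hk.le hc) (not_le.2 hpos)
      obtain ⟨e1, e2⟩ := neg hk ho
      have e3 : (1 : ℝ) / 2 * (1 / 2) ≤ (1 - 2 * z ^ 2) * (1 - 2 * z' ^ 2) :=
        mul_le_mul za zb (by norm_num) (by linarith)
      linarith
    · have hk0 : 0 ≤ κ := hk
      have ho : 0 ≤ ω := by
        by_contra hc
        push Not at hc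
        exact absurd (mul_nonpos_of_nonneg_of_nonpos hk0 hc.le) (not_le.2 hpos)
      obtain ⟨r1, r2⟩ := rect hk0 ho hκA hωB
      have e1 : A * B ≤ A := mul_le_of_le_one_right a0.le hB1
      have e2 : A * B ≤ B := mul_le_of_le_one_left b0.le hA1
      set u := 5 * (κ * ω) with hudef
      set v := 5 * ((A - κ) * (B - ω)) with hvdef
      have e3 : A * B ≤ u := by linarith
      have e4 : 2 * (A * B) ≤ v := by linarith
      have e5 : (5 * (A * B) - u - v) ^ 2 ≤ (2 * (A * B)) ^ 2 := pow_le_pow_left₀ r1 (by linarith) 2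
      have e6 : A * B * (2 * (A * B)) ≤ u * v := mul_le_mul e3 e4 (by positivity) (by linarith)
      have e7 : 0 < (A * B) ^ 2 := by positivity
      linarith
  · push Not at hτ
    obtain ⟨t1, t2⟩ := mixed hz1 hz2 hz'1 hz'2 hτ
    have AB1 : 0 < A * B := AB0
    rcases lt_or_ge κ 0 with hk | hk
    · rcases lt_or_ge ω 0 with ho | ho
      · obtain ⟨e1, e2⟩ := neg hk ho
        have e3 : (119 : ℝ) / 256 ≤ (1 - 2 * z ^ 2) * (1 - 2 * z' ^ 2) := by
          rcases t2 with ⟨t3, t4⟩ | ⟨t3, t4⟩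
          · have e5 : (1 : ℝ) / 2 * (119 / 128) ≤ (1 - 2 * z ^ 2) * (1 - 2 * z' ^ 2) :=
              mul_le_mul t3 t4 (by norm_num) (by linarith)
            linarith
          · have e5 : (119 : ℝ) / 128 * (1 / 2) ≤ (1 - 2 * z ^ 2) * (1 - 2 * z' ^ 2) :=
              mul_le_mul t3 t4 (by norm_num) (by linarith)
            linarith
        linarith
      · -- mixed signs of the parameters
        have e1 : κ * ω ≤ 0 := mul_nonpos_of_nonpos_of_nonneg hk.le ho
        have e2 : 1 - 2 * z ^ 2 < A := by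
          have h3 : A * κ < 0 := mul_neg_of_pos_of_neg a0 hk
          have := sq_nonneg κ
          linarith
        have e3 : 1 - 2 * z' ^ 2 ≤ B + 1.25 * B ^ 2 := by nlinarith [sq_nonneg (B - 2 * ω)]
        rcases t2 with ⟨t3, t4⟩ | ⟨t3, t4⟩
        · have e4 : 0.5 ≤ B := by
            by_contra hc
            push Not at hc
            nlinarith
          have e5 : (0.5 : ℝ) * 0.5 ≤ A * B :=
            mul_le_mul (by norm_num; linarith) e4 (by norm_num) a0.le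
          norm_num at e5
          linarith
        · have e4 := root0 b0 (t4.trans e3)
          have e5 : (0.9 : ℝ) * 0.34 ≤ A * B :=
            mul_le_mul (by norm_num; linarith) e4 (by norm_num) a0.le
          norm_num at e5
          linarith
    · rcases lt_or_ge ω 0 with ho | ho
      · have e1 : κ * ω ≤ 0 := mul_nonpos_of_nonneg_of_nonpos hk ho.le
        have e2 : 1 - 2 * z' ^ 2 < B := by
          have h3 : B * ω < 0 := mul_neg_of_pos_of_neg b0 ho
          have := sq_nonneg ω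
          linarith
        have e3 : 1 - 2 * z ^ 2 ≤ A + 1.25 * A ^ 2 := by nlinarith [sq_nonneg (A - 2 * κ)]
        rcases t2 with ⟨t3, t4⟩ | ⟨t3, t4⟩
        · have e4 := root0 a0 (t3.trans e3)
          have e5 : (0.34 : ℝ) * 0.9 ≤ A * B :=
            mul_le_mul e4 (by norm_num; linarith) (by norm_num) a0.le
          norm_num at e5
          linarith
        · have e4 : 0.5 ≤ A := by
            by_contra hc
            push Not at hc
            nlinarith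
          have e5 : (0.5 : ℝ) * 0.5 ≤ A * B :=
            mul_le_mul e4 (by norm_num; linarith) (by norm_num) a0.le
          norm_num at e5
          linarith
      · by_cases hAB : A * B ≤ 0.2214
        · rcases t2 with ⟨t3, t4⟩ | ⟨t3, t4⟩
          · exact small a0 b0 hA1 hB1 hk ho hκA hωB hCA hCB (by linarith) hAB t3 t4
          · exact small b0 a0 hB1 hA1 ho hk hωB hκA hCB hCA (by linarith) (by linarith) t4 t3
        · push Not at hAB
          obtain ⟨r1, r2⟩ := rect hk ho hκA hωB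
          obtain ⟨hP1, hPs⟩ := sqrt_facts a0.le b0.le hA1 hB1
          set P := Real.sqrt (A * B) with hPdef
          have hP2 : P ^ 2 = A * B := Real.sq_sqrt AB0.le
          have hP0 : 0 ≤ P := Real.sqrt_nonneg _
          refine poly_mixed (P := P) (u := 5 * (κ * ω)) (v := 5 * ((A - κ) * (B - ω))) hP0 hP1
            (by rw [hP2]; exact hAB.le) (by rw [hP2]; linarith) (by linarith)
            (by rw [hP2]; exact r1) ?_
          rw [hP2]
          exact r2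

end Vale.Agent.P052.R3.H506.V5
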